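import Vale.Agent.P058.H840.Main

/-- The characterization of the finite Ramsey sets by integer profiles, with the decision of the
conjecture of Leader, Russell and Walters; the tensor criterion; Ramsey is the same as spherical
for at most six points, in every dimension; spherical sets imposing independent conditions on
quadrics are Ramsey; and the sharp threshold: almost every `n`-tuple of points of the unit sphere
of `ℝ^(m+1)` is Ramsey if and only if `n ≤ threshold m`. -/
theorem Vale.Agent.Results.P058.SharpThreshold.result :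
    ((∀ (d : ℕ) (A : Set (EuclideanSpace ℝ (Fin d))), A.Finite → A.Nonempty →
        (Vale.Agent.P058.IsRamsey A ↔ Vale.Agent.P058.HasProfile (fun _ => True) A) ∧
        (Vale.Agent.P058.IsSubtransitive A ↔ Vale.Agent.P058.HasProfile (fun m => 0 < m) A) ∧
        (Vale.Agent.P058.IsSubtransitive A → Vale.Agent.P058.IsRamsey A) ∧
        (Vale.Agent.P058.IsSpherical A → (∀ x ∈ A, ∀ y ∈ A, IsAlgebraic ℚ (dist x y)) →
          Vale.Agent.P058.IsRamsey A)) ∧
      (∀ A : Set (EuclideanSpace ℝ (Fin 2)), A.Finite → A.Nonempty → A.ncard ≤ 5 →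
        Vale.Agent.P058.IsSpherical A → Vale.Agent.P058.IsRamsey A) ∧
      (∃ A : Set (EuclideanSpace ℝ (Fin 2)), A.Finite ∧ A.Nonempty ∧
        Vale.Agent.P058.IsRamsey A ∧ ¬ Vale.Agent.P058.IsSubtransitive A) ∧
      (∃ A : Set (EuclideanSpace ℝ (Fin 2)), A.Finite ∧ A.Nonempty ∧
        Vale.Agent.P058.IsSpherical A ∧ ¬ Vale.Agent.P058.IsRamsey A)) ∧
    (∀ (d : ℕ) (A : Set (EuclideanSpace ℝ (Fin d))), A.Finite → A.Nonempty →
      (Vale.Agent.P058.IsRamsey A ↔ Vale.Agent.P058.HasTensorProfile A) ∧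
      (A.ncard ≤ 6 → (Vale.Agent.P058.IsRamsey A ↔ Vale.Agent.P058.IsSpherical A)) ∧
      (Vale.Agent.P058.IsSpherical A → Vale.Agent.P058.QuadricIndependent A →
        Vale.Agent.P058.IsRamsey A)) ∧
    (∀ m n : ℕ, 1 ≤ m → 1 ≤ n → ∀ᵐ s : Fin n × Fin m → ℝ,
      (Vale.Agent.P058.IsRamsey
        (Set.range fun i : Fin n => Vale.Agent.P058.sphPt fun k => s (i, k)) ↔
          n ≤ Vale.Agent.P058.threshold m)) := by
  refine ⟨⟨fun _ _ hA hne => ⟨Vale.Agent.P058.isRamsey_iff_profile hA hne,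
    Vale.Agent.P058.isSubtransitive_iff_profile hA hne,
    fun h => (Vale.Agent.P058.isRamsey_iff_fold hA hne).2
      ⟨0, le_rfl, one_pos, (Vale.Agent.P058.isSubtransitive_iff hne).1 h⟩,
    fun ⟨z, ρ, hS⟩ halg => (Vale.Agent.P058.isRamsey_iff_signed hA hne).2
      (Vale.Agent.P058.hasSignedProfile_of_algebraic_dist hA z ρ hS halg)⟩,
    fun _ hA hne hc ⟨z, ρ, hS⟩ => (Vale.Agent.P058.isRamsey_iff_signed hA hne).2
      (Vale.Agent.P058.signed_of_concyclic hA hc z ρ hS),
    Vale.Agent.P058.exists_ramsey_not_subtransitive,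
    Vale.Agent.P058.exists_spherical_not_ramsey⟩,
    fun _ _ hA hne => ⟨Vale.Agent.P058.isRamsey_iff_tensor hA hne,
      Vale.Agent.P058.isRamsey_iff_isSpherical_of_card_le_six hA hne,
      fun hS hq => (Vale.Agent.P058.isRamsey_iff_signed hA hne).2
        (Vale.Agent.P058.signed_of_quadricIndependent hA hS hq)⟩,
    fun _ _ hm hn => Vale.Agent.P058.ae_ramsey_iff hm hn⟩
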