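import Vale.Agent.P058.H726.Defs
import Vale.Agent.P058.H726.Sharp

/-- (1) The characterization of the finite Ramsey sets by integer profiles, with the decision of
the conjecture of Leader, Russell and Walters. (2) Unions in general position: if the finite
nonempty sets `A i` have disjoint affinely independent affine spans
(`dim (⋃ A i) + 1 = ∑ (dim (A i) + 1)`), their union is Ramsey if and only if every `A i` is.
(3) The same if the affine spans are independent through a common point `z`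
(`dim (⋃ A i) = ∑ dim (A i)`), when `z` belongs to every `A i`, or the union lies on a sphere that
does not contain `z`. (4) The condition on `z` in (3) cannot be dropped. -/
theorem Vale.Agent.Results.P058.SkewUnions.result :
    Vale.Agent.P058.RamseyCharacterization ∧
    (∀ (d k : ℕ) (A : Fin k → Set (EuclideanSpace ℝ (Fin d))),
      (∀ i, (A i).Finite ∧ (A i).Nonempty) →
      Vale.Agent.P058.affDim (⋃ i, A i) + 1 = ∑ i, (Vale.Agent.P058.affDim (A i) + 1) →
      (Vale.Agent.P058.IsRamsey (⋃ i, A i) ↔ ∀ i, Vale.Agent.P058.IsRamsey (A i))) ∧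
    (∀ (d k : ℕ) (A : Fin k → Set (EuclideanSpace ℝ (Fin d))) (z : EuclideanSpace ℝ (Fin d)),
      (∀ i, (A i).Finite ∧ z ∈ affineSpan ℝ (A i)) →
      Vale.Agent.P058.affDim (⋃ i, A i) = ∑ i, Vale.Agent.P058.affDim (A i) →
      ((∀ i, z ∈ A i) ∨ ∃ (w : EuclideanSpace ℝ (Fin d)) (ρ : ℝ),
        (∀ v ∈ ⋃ i, A i, dist v w = ρ) ∧ dist z w ≠ ρ) →
      (Vale.Agent.P058.IsRamsey (⋃ i, A i) ↔ ∀ i, Vale.Agent.P058.IsRamsey (A i))) ∧
    (∃ (A : Fin 2 → Set (EuclideanSpace ℝ (Fin 3))) (z : EuclideanSpace ℝ (Fin 3)),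
      (∀ i, (A i).Finite ∧ z ∈ affineSpan ℝ (A i)) ∧ z ∈ A 1 ∧
      Vale.Agent.P058.affDim (⋃ i, A i) = ∑ i, Vale.Agent.P058.affDim (A i) ∧
      (∀ i, Vale.Agent.P058.IsRamsey (A i)) ∧ Vale.Agent.P058.IsSpherical (⋃ i, A i) ∧
      ¬ Vale.Agent.P058.IsRamsey (⋃ i, A i)) := by
  refine ⟨⟨fun _ _ hA hne => ⟨Vale.Agent.P058.isRamsey_iff_profile hA hne,
    Vale.Agent.P058.isSubtransitive_iff_profile hA hne,
    fun h => (Vale.Agent.P058.isRamsey_iff_fold hA hne).2
      ⟨0, le_rfl, one_pos, (Vale.Agent.P058.isSubtransitive_iff hne).1 h⟩,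
    fun ⟨z, ρ, hS⟩ halg => (Vale.Agent.P058.isRamsey_iff_signed hA hne).2
      (Vale.Agent.P058.hasSignedProfile_of_algebraic_dist hA z ρ hS halg)⟩,
    fun _ hA hne hc ⟨z, ρ, hS⟩ => (Vale.Agent.P058.isRamsey_iff_signed hA hne).2
      (Vale.Agent.P058.signed_of_concyclic hA hc z ρ hS),
    Vale.Agent.P058.exists_ramsey_not_subtransitive,
    Vale.Agent.P058.exists_spherical_not_ramsey⟩,
    fun _ _ A h hdim => Vale.Agent.P058.Skew.isRamsey_iUnion_iff A (fun i => (h i).1)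
      (fun i => (h i).2) hdim,
    fun _ _ A z h hdim hcase =>
      Vale.Agent.P058.Skew.isRamsey_bouquet_iff A (fun i => (h i).1) z (fun i => (h i).2) hdim
        (hcase.imp_right fun ⟨w, ρ, h1, h2⟩ =>
          ⟨w, ρ, fun i v hv => h1 v (Set.mem_iUnion.2 ⟨i, hv⟩), h2⟩), ?_⟩
  obtain ⟨A, z, h1, h2, h3, h4, h5, h6, h7⟩ := Vale.Agent.P058.Skew.exists_not_ramsey
  exact ⟨A, z, fun i => ⟨h1 i, h2 i⟩, h3, h4, h5, h6, h7⟩
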